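import Vale.Agent.P158.NB.Assembly
import Vale.Agent.P158.NB.MainFinal

open MeasureTheory
open Vale.Agent.P158

namespace Vale.Agent.Results.P158.NoBigeodesics

/-- For every atomless law on the nonnegative reals, almost surely there is no bigeodesic. -/
theorem result (G : Measure ℝ) [IsProbabilityMeasure G] (h0 : G (Set.Iio 0) = 0)
    (hat : ∀ a, G {a} = 0) :
    ∀ᵐ t ∂weightMeasure G, ∀ v : ℤ → ℤ × ℤ, ¬ IsBigeodesic t v :=
  NB.ae_no_bigeodesic_of_main ⟨h0, hat⟩ fun N hF hGr hC hU =>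
    N.bigeoStep_null ⟨h0, hat⟩ hF hGr hC hU

end Vale.Agent.Results.P158.NoBigeodesics
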